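import Vale.Agent.P167.H825.Jun.Sgn
import Vale.Agent.P167.H871.Q.LF2
import Vale.Agent.P167.H506.Q.Sp6
import Vale.Agent.P167.H825.S.Geo

/-!
# P167, general `q`, block L2S, [JUN]: the factors of the junctions of a frame

`jun_dob`: Dobrushin boundary conditions, the factors are bounded by `2 cos θ` to the number of the
exterior strands between frozen squares of different colours. `jun_fw`: free or wired boundary
conditions, the factors are bounded.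
-/

set_option autoImplicit false

namespace Vale.Agent.P167.H825.Jun

open Finset
open Vale.Agent.P167.Top
open Vale.Agent.P167.FK
open Vale.Agent.P167.E6 (IsPolygon Encloses dir)
open Vale.Agent.P167.XDL (bS mem_bS)
open Vale.Agent.P167.H825 (enl pdir ptau Marks)
open Vale.Agent.P167.H825.Q (Row Bc frow srow stΦ stτ stτ_or)
open Vale.Agent.P167.H680.T (uI mem_uI frows)
open Vale.Agent.P167.H199 (Gap ret Returns ret_min)
open Vale.Agent.P167.H398.Q (hB Tjun Frz)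
open Vale.Agent.P167.QX (exc_last lst)
open Vale.Agent.P167.H945.Q (face faces lrs jn Plain Tc ctr tj)
open Vale.Agent.P167.H871.Q (mem_lrs' Stays alm_J lrs_loc faces_bS frame_hole)
open Vale.Agent.P167.H506.Q (faces_disj' MZ one_le_two_cos sin2_pos alt_anti zero_anti jn_alt bf_J
  jn_K3 jn_nn)
open Vale.Agent.P167.Enl (kOf uN sW eW tB BGap nfc frows_okg frows_disj two_face bq bq_frows
  ctr_own2 rb_of kOf_lt nm_tri nm_sub_comm)

variable {θ β : ℝ} {K D : Finset (ℤ × ℤ)} {r : Row} {b f : Bool} {B : Finset (ℤ × ℤ)} {ω : Cfg}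
  {e : Ed} {R ρ : ℤ}

/-! ### mixed exterior strands -/

/-- The strands of the cuts of `K` which do not visit `D` and join frozen squares of different
colours. -/
noncomputable def mixE (K D : Finset (ℤ × ℤ)) (ω : Cfg) : Finset Ed := by
  classical
  exact (bS K).filter fun e => hdv e ∉ K ∧ hdv e ∉ D ∧ Returns (nx ω) (bS K) e ∧
    (∀ k < ret (nx ω) (bS K) e, hdv ((nx ω)^[k] e) ∉ D) ∧ ω (tlv e) ≠ ω (hdv (lst K ω e))

theorem mem_mixE : e ∈ mixE K D ω ↔ e ∈ bS K ∧ hdv e ∉ K ∧ hdv e ∉ D ∧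
    Returns (nx ω) (bS K) e ∧ (∀ k < ret (nx ω) (bS K) e, hdv ((nx ω)^[k] e) ∉ D) ∧
    ω (tlv e) ≠ ω (hdv (lst K ω e)) := by
  classical
  unfold mixE
  rw [mem_filter]

/-- The strands over the junction, on one face. -/
noncomputable def LJ (K : Finset (ℤ × ℤ)) (r : Row) (b : Bool) (B : Finset (ℤ × ℤ)) (ω : Cfg) :
    Finset Ed :=
  lrs K (faces r b 0 r.k0) (faces r b r.k0 r.L) B ω ∪
    lrs K (faces r b r.k0 r.L) (faces r b 0 r.k0) B ω

theorem card_LJ : (LJ K r b B ω).card =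
    (lrs K (faces r b 0 r.k0) (faces r b r.k0 r.L) B ω).card +
      (lrs K (faces r b r.k0 r.L) (faces r b 0 r.k0) B ω).card := by
  unfold LJ
  refine card_union_of_disjoint ?_
  refine disjoint_left.2 fun e h1 h2 => ?_
  exact disjoint_left.1 (faces_disj' (r := r) (b := b) (lo := 0) (m := r.k0) (hi := r.L))
    (mem_lrs'.1 h1).1 (mem_lrs'.1 h2).1

/-- The start and the end of a strand of a row. -/
theorem strand_face (hI : r.I ⊆ K) {lo hi lo' hi' : ℕ} (h1 : hi ≤ r.L) (h2 : hi' ≤ r.L)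
    (he : e ∈ lrs K (faces r f lo hi) (faces r f lo' hi') B ω) :
    ∃ k m, lo ≤ k ∧ k < hi ∧ lo' ≤ m ∧ m < hi' ∧ e = face r f k ∧ tlv e = r.sq k ∧
      hdv (lst K ω e) = r.sq m := by
  obtain ⟨hA, hS, hA', -⟩ := mem_lrs'.1 he
  obtain ⟨k, k1, k2, k3⟩ := H506.Q.mem_faces.1 hA
  obtain ⟨m, m1, m2, m3⟩ := H506.Q.mem_faces.1 hA'
  have hl : hdv (lst K ω e) ∈ K ∧ tlv (lst K ω e) ∉ K := exc_last hS.out hS.rt
  have kI : r.sq k ∈ r.I := mem_image.2 ⟨k, mem_range.2 (by omega), rfl⟩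
  have mI : r.sq m ∈ r.I := mem_image.2 ⟨m, mem_range.2 (by omega), rfl⟩
  refine ⟨k, m, k1, k2, m1, m2, k3.symm, ?_, ?_⟩
  · have h3 := two_face r f k
    rw [k3] at h3
    rcases h3 with ⟨a1, a2⟩ | ⟨a1, a2⟩
    · exact absurd (by rw [a1]; exact hI kI) hS.out
    · exact a2
  · have h3 := two_face r f m
    rw [m3] at h3
    rcases h3 with ⟨a1, a2⟩ | ⟨a1, a2⟩
    · exact a1
    · exact absurd (by rw [a2]; exact hI mI) hl.2

/-- The strands of `LJ` start at the row. -/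
theorem LJ_tl (hI : r.I ⊆ K) (hk0 : r.k0 ≤ r.L) (he : e ∈ LJ K r f B ω) : tlv e ∈ r.I := by
  unfold LJ at he
  rcases mem_union.1 he with he | he
  · obtain ⟨k, m, -, k2, -, -, -, k3, -⟩ := strand_face hI hk0 le_rfl he
    rw [k3]
    exact mem_image.2 ⟨k, mem_range.2 (by omega), rfl⟩
  · obtain ⟨k, m, -, k2, -, -, -, k3, -⟩ := strand_face hI le_rfl hk0 he
    rw [k3]
    exact mem_image.2 ⟨k, mem_range.2 k2, rfl⟩

/-- **The strands over the far face of a junction are mixed exterior strands.** -/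
theorem LJ_mix (hI : r.I ⊆ K) (hfr : ∀ v ∈ r.I, ω v = r.fr v) (hk0 : r.k0 ≤ r.L)
    (hs : r.s = 1 ∨ r.s = -1) (hη : r.η = -1)
    (hfar : ∀ k < r.L, hdv (face r f k) ∉ D)
    (hB : ∀ y ∈ bS D, y ∉ bS K → hdv y ∉ B) : LJ K r f B ω ⊆ mixE K D ω := by
  intro e he
  have gen : ∀ {lo hi lo' hi' : ℕ}, hi ≤ r.L → hi' ≤ r.L →
      e ∈ lrs K (faces r f lo hi) (faces r f lo' hi') B ω →
      (∀ k m, lo ≤ k → k < hi → lo' ≤ m → m < hi' → r.fr (r.sq k) ≠ r.fr (r.sq m)) →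
      e ∈ mixE K D ω := by
    intro lo hi lo' hi' h1 h2 he hne
    obtain ⟨k, m, k1, k2, m1, m2, k3, k4, m3⟩ := strand_face hI h1 h2 he
    obtain ⟨-, hS, -, hst⟩ := mem_lrs'.1 he
    have kI : r.sq k ∈ r.I := mem_image.2 ⟨k, mem_range.2 (by omega), rfl⟩
    have mI : r.sq m ∈ r.I := mem_image.2 ⟨m, mem_range.2 (by omega), rfl⟩
    have hD0 : hdv e ∉ D := by rw [k3]; exact hfar k (by omega)
    refine mem_mixE.2 ⟨mem_bS.2 (Or.inr ⟨hS.out, hS.tl⟩), hS.out, hD0, hS.rt, ?_, ?_⟩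
    · intro j
      induction j with
      | zero => intro _; exact hD0
      | succ j ih =>
        intro hj hcon
        have h3 := ih (by omega)
        rw [Function.iterate_succ_apply'] at hcon
        have h4 : nx ω ((nx ω)^[j] e) ∉ bS K := by
          rw [← Function.iterate_succ_apply' (nx ω)]
          exact ret_min (by omega) hj
        have h5 : nx ω ((nx ω)^[j] e) ∈ bS D := mem_bS.2 (Or.inl ⟨hcon, by
          rw [tlv_nx]; exact h3⟩)
        have h6 := hst (j + 1) hj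
        rw [Function.iterate_succ_apply'] at h6
        exact hB _ h5 h4 (mem_coe.1 h6)
    · rw [k4, m3, hfr _ kI, hfr _ mI]
      exact hne k m k1 k2 m1 m2
  have hcol : ∀ k m : ℕ, k < r.k0 → r.k0 ≤ m → r.fr (r.sq k) ≠ r.fr (r.sq m) := by
    intro k m h1 h2
    unfold Row.fr
    rw [Row.τ_sq, Row.τ_sq, if_neg (by omega), if_pos h2, hη]
    rcases hs with h | h <;> rw [h] <;> norm_num
  unfold LJ at he
  rcases mem_union.1 he with he | he
  · exact gen hk0 le_rfl he fun k m _ h2 h3 _ => hcol k m h2 h3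
  · exact gen le_rfl hk0 he fun k m h1 _ _ h4 => (hcol m k h4 h1).symm

/-! ### the factors -/

theorem T_far {c : ℝ} (hc : 1 ≤ c) (h1 : 0 ≤ (jn θ r b).w) (h2 : 0 ≤ (jn θ r b).w')
    (h3 : (jn θ r b).w ≤ c) (h4 : (jn θ r b).w' ≤ c) :
    (jn θ r b).T K R ω ≤ c ^ (LJ K r b ((jn θ r b).bx R) ω).card := by
  rw [card_LJ, pow_add]
  show (jn θ r b).w ^ _ * (jn θ r b).w' ^ _ ≤ _
  exact mul_le_mul (pow_le_pow_left₀ h1 h3 _) (pow_le_pow_left₀ h2 h4 _) (by positivity)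
    (by positivity)

theorem T_near (h1 : 0 ≤ (jn θ r b).w) (h2 : 0 ≤ (jn θ r b).w')
    (h3 : (jn θ r b).w ≤ 1) (h4 : (jn θ r b).w' ≤ 1) : (jn θ r b).T K R ω ≤ 1 := by
  show (jn θ r b).w ^ _ * (jn θ r b).w' ^ _ ≤ _
  have h5 := pow_le_one₀ (n := (lrs K (jn θ r b).A (jn θ r b).A' ((jn θ r b).bx R) ω).card) h1 h3
  have h6 := pow_le_one₀ (n := (lrs K (jn θ r b).A' (jn θ r b).A ((jn θ r b).bx R) ω).card) h2 h4
  exact mul_le_one₀ h5 (by positivity) h6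

/-- The factor of a junction. -/
theorem Tc_two (hP : ¬ Plain r) : Tc θ K r 2 R ω =
    (jn θ r true).T K R ω * (jn θ r false).T K R ω := by
  unfold Tc
  rw [if_neg (by decide), if_neg (by decide), if_neg hP]

theorem Tc_plain2 (hP : Plain r) : Tc θ K r 2 R ω = 1 := by
  unfold Tc
  rw [if_neg (by decide), if_neg (by decide), if_pos hP]

/-! ### the frame -/

section frame

variable {l : ℕ} {p : ZMod l → ℤ × ℤ} {n : ℕ} {S₀ : Finset (ℤ × ℤ)} {Q : Marks} {bc : Bc}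
  {g δ : ℝ} {ia : ℕ} {ta : ℝ}

/-- The boxes of the junctions do not meet the holes. -/
theorem jun_hole (hp : IsPolygon p) (hD : Encloses p S₀) (hQ : Q.Ok) (hg : Gap Q l g)
    (hbg : BGap l Q g bc) (hδ : 0 < δ) (hδg : 4 * δ ≤ g) (hn : 16 ≤ δ * n) (hρ0 : 0 ≤ ρ)
    (hρ : (2 * ρ : ℝ) + 2 * (δ * n) + 20 < g * n) (x : Fin l × Fin (Q.m + 1))
    (hx : ¬ Plain (frows θ β p Q n ⌊δ * n⌋₊ bc x)) (b : Bool) {y : Ed}
    (h1 : y ∈ bS (enl S₀ n)) (h2 : y ∉ bS (uI (frows θ β p Q n ⌊δ * n⌋₊ bc))) :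
    hdv y ∉ (jn θ (frows θ β p Q n ⌊δ * n⌋₊ bc x) b).bx ρ := by
  intro h3
  have h4 := frame_hole (R := (⌊δ * n⌋₊ : ℤ) + 4) hp hD hQ hg hδ hδg hn le_rfl h1 h2
  obtain ⟨z, hz⟩ := Enl.mem_hB.1 (mem_coe.1 h4)
  have hf : (⌊δ * (n : ℝ)⌋₊ : ℝ) ≤ δ * n := Nat.floor_le (by linarith)
  have h5 := H825.S.jun_far hp hQ hg hδ hδg hn hbg x hx (m := ρ + (⌊δ * n⌋₊ + 4))
    (by omega) (by push_cast; linarith) z
  have h6 := (alm_J (θ := θ) (b := b)).nm h3
  have h7 := nm_tri (ctr (frows θ β p Q n ⌊δ * n⌋₊ bc x) 2) (hdv y) (H662.hsite p Q n z)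
  have h8 : nm (ctr (frows θ β p Q n ⌊δ * n⌋₊ bc x) 2 - hdv y) ≤ ρ := by
    rw [nm_sub_comm]
    exact h6
  have h9 : nm (hdv y - H662.hsite p Q n z) ≤ (⌊δ * n⌋₊ : ℤ) + 4 := Enl.mem_Bq' hz
  omega

/-- **(J1) Dobrushin boundary conditions.** -/
theorem jun_dob (hp : IsPolygon p) (hD : Encloses p S₀) (hQ : Q.Ok) (h0 : 0 < θ)
    (h1 : θ ≤ Real.pi / 3) (hβ : β = (θ - Real.pi) / 2 ∨ β = (Real.pi - 3 * θ) / 2)
    (hg : Gap Q l g) (hbg : BGap l Q g (.dob ia ta)) (hδ : 0 < δ) (hδg : 4 * δ ≤ g)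
    (hn : 16 ≤ δ * n) (hρ0 : 0 ≤ ρ) (hρ : (2 * ρ : ℝ) + 2 * (δ * n) + 20 < g * n)
    (hω : Frz (frows θ β p Q n ⌊δ * n⌋₊ (.dob ia ta)) ω) :
    Tjun θ (frows θ β p Q n ⌊δ * n⌋₊ (.dob ia ta)) ρ ω ≤
      (2 * Real.cos θ) ^ (mixE (uI (frows θ β p Q n ⌊δ * n⌋₊ (.dob ia ta))) (enl S₀ n) ω).card := by
  classical
  have hc := one_le_two_cos h0 h1
  set r := frows θ β p Q n ⌊δ * n⌋₊ (.dob ia ta) with hr
  set L : Fin l × Fin (Q.m + 1) → Finset Ed := fun x =>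
    if Plain (r x) then ∅ else
      LJ (uI r) (r x) (!nfc (pdir p x.1)) ((jn θ (r x) (!nfc (pdir p x.1))).bx ρ) ω with hL
  have hsub : ∀ x, (r x).I ⊆ uI r := fun x v hv => mem_uI.2 ⟨x, hv⟩
  have hok : ∀ x, (r x).Ok θ (g / 4) n := fun x =>
    frows_okg hp hD hQ h0 (by linarith) hβ hg hbg hδ hδg hn x
  have hgn : 0 ≤ g * n := by nlinarith
  have hk0 : ∀ x, ¬ Plain (r x) → (r x).k0 ≤ (r x).L := by
    intro x hx
    rcases (hok x).kind with h | ⟨-, -, h⟩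
    · exact absurd h hx
    · have h2 : ((r x).k0 : ℝ) ≤ (r x).L := by linarith
      exact_mod_cast h2
  -- the factors
  have step : ∀ x, Tc θ (uI r) (r x) 2 ρ ω ≤ (2 * Real.cos θ) ^ (L x).card := by
    intro x
    by_cases hx : Plain (r x)
    · rw [Tc_plain2 hx, hL]
      dsimp only
      rw [if_pos hx, card_empty, pow_zero]
    · rw [Tc_two hx, hL]
      dsimp only
      rw [if_neg hx]
      obtain ⟨-, w1, w2, w3⟩ := jn_dob hp hD hQ h0 h1 hβ hg hbg hδ hδg hn x hx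
      obtain ⟨n1, n2⟩ := jn_nn (r := r x) (b := nfc (pdir p x.1)) h0 h1
      obtain ⟨f1, f2⟩ := jn_nn (r := r x) (b := !nfc (pdir p x.1)) h0 h1
      have t1 := T_near (K := uI r) (R := ρ) (ω := ω) n1 n2 w2 w3
      have t2 := T_far (K := uI r) (R := ρ) (ω := ω) hc f1 f2 (w1 _).1 (w1 _).2
      have t3 : 0 ≤ (jn θ (r x) (!nfc (pdir p x.1))).T (uI r) ρ ω :=
        H945.Q.SP.T_nonneg f1 f2 _ _ _
      have t4 : 0 ≤ (jn θ (r x) (nfc (pdir p x.1))).T (uI r) ρ ω :=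
        H945.Q.SP.T_nonneg n1 n2 _ _ _
      have e1 : (jn θ (r x) true).T (uI r) ρ ω * (jn θ (r x) false).T (uI r) ρ ω =
          (jn θ (r x) (nfc (pdir p x.1))).T (uI r) ρ ω *
            (jn θ (r x) (!nfc (pdir p x.1))).T (uI r) ρ ω := by
        cases nfc (pdir p x.1)
        · rw [mul_comm]; rfl
        · rfl
      rw [e1]
      calc _ ≤ 1 * (2 * Real.cos θ) ^ _ := mul_le_mul t1 t2 t3 zero_le_one
        _ = _ := one_mul _
  -- the strands
  have hdis : ∀ x ∈ (univ : Finset (Fin l × Fin (Q.m + 1))), ∀ y ∈ univ, x ≠ y →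
      Disjoint (L x) (L y) := by
    intro x _ y _ hxy
    refine disjoint_left.2 fun e he he' => hxy ?_
    rw [hL] at he he'
    dsimp only at he he'
    by_cases hx : Plain (r x)
    · rw [if_pos hx] at he
      exact absurd he (notMem_empty _)
    by_cases hy : Plain (r y)
    · rw [if_pos hy] at he'
      exact absurd he' (notMem_empty _)
    rw [if_neg hx] at he
    rw [if_neg hy] at he'
    exact frows_disj hp hQ hg hδ hδg hn (LJ_tl (hsub x) (hk0 x hx) he)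
      (LJ_tl (hsub y) (hk0 y hy) he')
  have hmix : univ.biUnion L ⊆ mixE (uI r) (enl S₀ n) ω := by
    intro e he
    obtain ⟨x, -, he⟩ := mem_biUnion.1 he
    rw [hL] at he
    dsimp only at he
    by_cases hx : Plain (r x)
    · rw [if_pos hx] at he
      exact absurd he (notMem_empty _)
    rw [if_neg hx] at he
    refine LJ_mix (hsub x) (hω x) (hk0 x hx) (hok x).s
      (jn_dob hp hD hQ h0 h1 hβ hg hbg hδ hδg hn x hx).1 (fun k hk => ?_)
      (fun y hy1 hy2 => jun_hole hp hD hQ hg hbg hδ hδg hn hρ0 hρ x hx _ hy1 hy2) he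
    have h2 := (bq_frows (θ := θ) (β := β) (bc := .dob ia ta) hp hD hQ hg hδ hδg hn x hk).2
    have h3 := two_face (r x) (!nfc (pdir p x.1)) k
    rcases h3 with ⟨a1, a2⟩ | ⟨a1, a2⟩
    · rw [a1]
      have h4 := Enl.frmQ_disj (n := n) hp hD hQ hg hδ hδg hn
      rw [Finset.disjoint_left] at h4
      intro h5
      refine h4 h5 ?_
      rw [← Enl.uI_frows (θ := θ) (β := β) (bc := .dob ia ta)]
      exact mem_uI.2 ⟨x, mem_image.2 ⟨k, mem_range.2 hk, rfl⟩⟩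
    · rw [a1]
      exact h2
  unfold Tjun
  calc ∏ x, Tc θ (uI r) (r x) 2 ρ ω ≤ ∏ x, (2 * Real.cos θ) ^ (L x).card :=
        prod_le_prod (fun x _ => H945.Q.Tc_nonneg h0 h1 _ _ _ _ _) fun x _ => step x
    _ = (2 * Real.cos θ) ^ (univ.biUnion L).card := by
        rw [prod_pow_eq_pow_sum, card_biUnion hdis]
    _ ≤ _ := pow_le_pow_right₀ hc (card_le_card hmix)

/-- **(J2) Free and wired boundary conditions.** -/
theorem jun_fw (hp : IsPolygon p) (hD : Encloses p S₀) (hQ : Q.Ok) (h0 : 0 < θ)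
    (h1 : θ ≤ Real.pi / 3) (hβ : β = (θ - Real.pi) / 2 ∨ β = (Real.pi - 3 * θ) / 2)
    (hg : Gap Q l g) (hb : bc.Ok l Q) (hbg : BGap l Q g bc) (hδ : 0 < δ) (hδg : 4 * δ ≤ g)
    (hn : 16 ≤ δ * n) (hbc : bc = .free ∨ bc = .wired) (hρ0 : 2 ≤ ρ)
    (hρ : (4 * ρ : ℝ) + 8 ≤ g * n) (hω : Good ω) :
    Tjun θ (frows θ β p Q n ⌊δ * n⌋₊ bc) ρ ω ≤
      MZ θ ^ (12 * Fintype.card (Fin l × Fin (Q.m + 1))) := by
  have hc1 := one_le_two_cos h0 h1
  have hM1 : 1 ≤ MZ θ := le_max_left _ _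
  have hM2 : 2 * Real.cos θ ≤ MZ θ := (le_max_left _ _).trans (le_max_right _ _)
  have hM3 : Real.sin (3 * θ) / Real.sin (2 * θ) ≤ MZ θ :=
    (le_max_right _ _).trans (le_max_right _ _)
  have hv0 : 0 ≤ Real.sin (3 * θ) / Real.sin (2 * θ) := div_nonneg
    (Real.sin_nonneg_of_nonneg_of_le_pi (by linarith) (by linarith)) (sin2_pos h0 h1).le
  have hinv : (2 * Real.cos θ)⁻¹ ≤ MZ θ := (inv_le_one_of_one_le₀ hc1).trans hM1
  have step : ∀ x, Tc θ (uI (frows θ β p Q n ⌊δ * n⌋₊ bc)) (frows θ β p Q n ⌊δ * n⌋₊ bc x) 2 ρ ω ≤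
      MZ θ ^ 12 := by
    intro x
    have hok := frows_okg (β := β) (bc := bc) hp hD hQ h0 (by linarith) hβ hg hbg hδ hδg hn x
    have hη : (frows θ β p Q n ⌊δ * n⌋₊ bc x).η = 1 := by
      have h := rb_of (p := p) hQ hg hδ hδg hn x.1.2 (j := x.2) (by omega)
      have e1 : (frows θ β p Q n ⌊δ * n⌋₊ bc x).η = _ := srow_η _ _ _ _ _ _ _
      rw [e1]
      rcases hbc with rfl | rfl
      · have a1 : kOf l n (tB n Q) x.1 (sW p n Q ⌊δ * n⌋₊ x.1 x.2) < Bc.free.ka l n (tB n Q) :=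
          kOf_lt h.il h.sn h.ht
        have a2 : kOf l n (tB n Q) x.1 (eW p n Q ⌊δ * n⌋₊ x.1 x.2 - 1) <
            Bc.free.ka l n (tB n Q) := kOf_lt h.il h.en h.ht
        unfold stτ
        rw [if_pos a1, if_pos a2, one_mul]
      · have a1 : ¬ kOf l n (tB n Q) x.1 (sW p n Q ⌊δ * n⌋₊ x.1 x.2) <
            Bc.wired.ka l n (tB n Q) := Nat.not_lt_zero _
        have a2 : ¬ kOf l n (tB n Q) x.1 (eW p n Q ⌊δ * n⌋₊ x.1 x.2 - 1) <
            Bc.wired.ka l n (tB n Q) := Nat.not_lt_zero _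
        unfold stτ
        rw [if_neg a1, if_neg a2]
        norm_num
    obtain ⟨R, hR⟩ : ∃ R, R = frows θ β p Q n ⌊δ * n⌋₊ bc x := ⟨_, rfl⟩
    by_cases hx : Plain R
    · rw [← hR, Tc_plain2 hx]
      exact one_le_pow₀ hM1
    have hJ : (frows θ β p Q n ⌊δ * n⌋₊ bc x).I ⊆ uI (frows θ β p Q n ⌊δ * n⌋₊ bc) :=
      fun v hv => mem_uI.2 ⟨x, hv⟩
    have hown : ∀ v, v ∈ (jn θ (frows θ β p Q n ⌊δ * n⌋₊ bc x) true).bx ρ →
        v ∈ uI (frows θ β p Q n ⌊δ * n⌋₊ bc) → v ∈ (frows θ β p Q n ⌊δ * n⌋₊ bc x).I := by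
      intro v hv hv'
      refine ctr_own2 hp hD hQ hg hδ hδg hn hb hbg h0 (by linarith) hβ x (by rw [← hR]; exact hx)
        (ρ := ρ + 1) (by push_cast; nlinarith) ?_ hv'
      have h2 := (alm_J (θ := θ) (b := true)).nm hv
      unfold nm at h2
      simp only [Prod.fst_sub, Prod.snd_sub] at h2
      rw [max_le_iff, abs_le, abs_le] at h2
      have e2 : ctr (frows θ β p Q n ⌊δ * n⌋₊ bc x) 2 = (frows θ β p Q n ⌊δ * n⌋₊ bc x).sq
        (frows θ β p Q n ⌊δ * n⌋₊ bc x).k0 := rfl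
      rw [e2]
      unfold Bq
      rw [mem_product, mem_Ico, mem_Ico]
      omega
    rw [← hR] at hok hη hJ hown ⊢
    have hj : |R.j| = θ := by
      rcases hok.kind with h | ⟨⟨-, h⟩ | ⟨h, -⟩, -⟩
      · exact absurd h hx
      · rw [hη] at h; norm_num at h
      · exact h
    have hkk : ρ + 2 ≤ R.k0 ∧ R.k0 + ρ + 2 ≤ R.L := by
      rcases hok.kind with h | ⟨-, h2, h3⟩
      · exact absurd h hx
      · constructor
        · have : ((ρ + 2 : ℤ) : ℝ) ≤ R.k0 := by push_cast; linarith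
          exact_mod_cast this
        · have : (((R.k0 : ℤ) + ρ + 2 : ℤ) : ℝ) ≤ ((R.L : ℤ) : ℝ) := by push_cast; linarith
          exact_mod_cast this
    have hL : 1 ≤ R.L := by omega
    have face_le : ∀ b, (jn θ R b).T (uI (frows θ β p Q n ⌊δ * n⌋₊ bc)) ρ ω ≤ MZ θ ^ 6 := by
      intro b
      show (jn θ R b).w ^ (lrs _ (faces R b 0 R.k0) (faces R b R.k0 R.L)
        ((jn θ R true).bx ρ) ω).card * (jn θ R b).w' ^ (lrs _ (faces R b R.k0 R.L)
        (faces R b 0 R.k0) ((jn θ R true).bx ρ) ω).card ≤ _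
      rw [lrs_loc hJ hown (faces_bS hL (by omega)) (faces_bS hL le_rfl),
        lrs_loc hJ hown (faces_bS hL le_rfl) (faces_bS hL (by omega))]
      have a1 := jn_alt (b := b) (ω := ω) (R := ρ) (bf_J (θ := θ) (r := R) (b := true)) hρ0
        hkk.1 hkk.2 hω
      generalize (lrs R.I (faces R b 0 R.k0) (faces R b R.k0 R.L)
        ((jn θ R true).bx ρ) ω).card = x1 at a1 ⊢
      generalize (lrs R.I (faces R b R.k0 R.L) (faces R b 0 R.k0)
        ((jn θ R true).bx ρ) ω).card = x2 at a1 ⊢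
      have cz : ∀ {v : ℝ}, 0 ≤ v → v ≤ MZ θ → ∀ {x y : ℕ}, |(x : ℤ) - y| ≤ 3 →
          (0 : ℝ) ^ x * v ^ y ≤ MZ θ ^ 6 := by
        intro v hv hM x y h
        have := zero_anti hv hM hM1 (Nat.zero_le x) (Nat.zero_le y) h
        simpa using this
      have ca : ∀ {v v' : ℝ}, 0 < v → 0 < v' → v * v' ≤ 1 → v ≤ MZ θ → v' ≤ MZ θ →
          v ^ x1 * v' ^ x2 ≤ MZ θ ^ 6 := by
        intro v v' g1 g2 g3 g4 g5
        have := alt_anti g1 g2 g3 g4 g5 hM1 (Nat.zero_le x1) (Nat.zero_le x2) (by simp) a1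
        simpa using this
      rcases jn_K3 (b := b) h0 h1 hok.s hj hη with ⟨-, ⟨g1, g2⟩ | ⟨g1, g2⟩⟩ |
        ⟨-, ⟨g1, g2⟩ | ⟨g1, g2⟩⟩
      · rw [g1, g2]
        exact ca (by linarith) (by positivity) (by rw [mul_inv_cancel₀ (by linarith)]) hM2 hinv
      · rw [g1, g2]
        exact ca (by positivity) (by linarith) (by rw [inv_mul_cancel₀ (by linarith)]) hinv hM2
      · rw [g1, g2]
        exact cz hv0 hM3 a1
      · rw [g1, g2, mul_comm]
        rw [abs_sub_comm] at a1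
        exact cz hv0 hM3 a1
    rw [Tc_two hx]
    obtain ⟨n1, n2⟩ := jn_nn (r := R) (b := false) h0 h1
    calc _ ≤ MZ θ ^ 6 * MZ θ ^ 6 := mul_le_mul (face_le true) (face_le false)
          (H945.Q.SP.T_nonneg n1 n2 _ _ _) (by positivity)
      _ = _ := by rw [← pow_add]
  unfold Tjun
  calc _ ≤ ∏ _x : Fin l × Fin (Q.m + 1), MZ θ ^ 12 :=
        prod_le_prod (fun x _ => H945.Q.Tc_nonneg h0 h1 _ _ _ _ _) fun x _ => step x
    _ = _ := by rw [prod_const, card_univ, ← pow_mul]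

end frame

end Vale.Agent.P167.H825.Jun
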