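import Vale.Agent.P167.H506.Q.Sp4
import Vale.Agent.P167.H592.U.Inst944
import Vale.Agent.P167.H592.U.Near

/-!
# P167, general `q`, block L2S, [JUN]: the weights of the faces of the junctions of a frame

The near face of a growing junction has the weights `1`.
-/

set_option autoImplicit false

namespace Vale.Agent.P167.H825.Jun

open Finset Real
open Vale.Agent.P167.E6 (IsPolygon Encloses dir)
open Vale.Agent.P167.H825 (enl pdir ptau Marks)
open Vale.Agent.P167.H825.Q (Row Bc frow srow srow_L stΦ stτ stτ_or uN_kOf)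
open Vale.Agent.P167.H680.T (frows)
open Vale.Agent.P167.H199 (Gap)
open Vale.Agent.P167.H945.Q (relw natw tj jn Plain)
open Vale.Agent.P167.H506.Q (relw_mix tj_cases sin1_pos sin2_pos one_le_two_cos jn_K1 jn_K2)
open Vale.Agent.P167.Enl (kOf uN sW eW tB BGap nfc fin4_cases frows_okg rb_of RB dob_lt)

variable {θ β : ℝ} {r : Row} {b : Bool}

/-! ### the weights of a growing junction -/

/-- The face with the weights `1`. -/
theorem jn_K2n (h0 : 0 < θ) (h1 : θ ≤ π / 3) (hs : r.s = 1 ∨ r.s = -1)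
    (hj : |r.j| = (π - 3 * θ) / 2) (hη : r.η = -1) (ht : tj r b * r.j ≤ 0) :
    (jn θ r b).w = 1 ∧ (jn θ r b).w' = 1 := by
  have s1 := sin1_pos h0 h1
  have hw : (jn θ r b).w = |cos (θ / 4 * tj r b + -r.j)| / sin θ := by
    show relw θ (tj r b) (-r.j) r.s (r.s * r.η) = _
    rw [hη, relw_mix hs]
  have hw' : (jn θ r b).w' = |cos (θ / 4 * tj r b + -r.j)| / sin θ := by
    show relw θ (-tj r b) r.j r.s (r.s * r.η) = _
    rw [hη, relw_mix hs]
    have e0 : θ / 4 * -tj r b + r.j = -(θ / 4 * tj r b + -r.j) := by ring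
    rw [e0, cos_neg]
  have v2 : |sin θ| / sin θ = 1 := by rw [abs_of_pos s1, div_self s1.ne']
  have key : |cos (θ / 4 * tj r b + -r.j)| = |sin θ| := by
    rcases tj_cases r b with ⟨h2, -⟩ | ⟨h2, -⟩ <;> rw [h2] at ht ⊢
    · have h3 : r.j ≤ 0 := by linarith
      rw [abs_of_nonpos h3] at hj
      have e1 : θ / 4 * 2 + -r.j = π / 2 - θ := by linarith
      rw [e1, cos_pi_div_two_sub]
    · have h3 : 0 ≤ r.j := by linarith
      rw [abs_of_nonneg h3] at hj
      have e1 : θ / 4 * (-2) + -r.j = -(π / 2 - θ) := by linarith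
      rw [e1, cos_neg, cos_pi_div_two_sub]
  rw [hw, hw', key]
  exact ⟨v2, v2⟩

/-- The weights of the junctions with a change of the colour. -/
theorem jn_le (h0 : 0 < θ) (h1 : θ ≤ π / 3) (hs : r.s = 1 ∨ r.s = -1)
    (hj : |r.j| = (π - θ) / 2 ∨ |r.j| = (π - 3 * θ) / 2) (hη : r.η = -1) (b : Bool) :
    (jn θ r b).w ≤ 2 * cos θ ∧ (jn θ r b).w' ≤ 2 * cos θ := by
  have hc := one_le_two_cos h0 h1
  rcases hj with hj | hj
  · rcases jn_K1 (b := b) h0 h1 hs hj hη with ⟨-, e1, e2⟩ | ⟨-, e1, e2⟩ <;> rw [e1, e2] <;>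
      constructor <;> linarith
  · rcases jn_K2 (b := b) h0 h1 hs hj hη with ⟨e1, e2, -⟩ | ⟨e1, e2, -⟩ <;> rw [e1, e2] <;>
      constructor <;> linarith

/-! ### the sign of the jump -/

/-- The turning over the near face and the jump of the phase. -/
theorem srow_tj (z : ℤ × ℤ) (r : Fin 4) (s e jp : ℕ) (F T : ℕ → ℝ) :
    tj (srow z r s e jp F T) (nfc r) * (srow z r s e jp F T).j = -2 * (F (e - 1) - F s) := by
  rcases fin4_cases r with rfl | rfl | rfl | rfl
  · simp [srow, tj, nfc]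
  · simp [srow, tj, nfc]
  · have : nfc 2 = false := by decide
    rw [this]
    simp only [srow, tj]
    norm_num
    ring
  · have : nfc 3 = true := by decide
    rw [this]
    simp only [srow, tj]
    norm_num
    ring

theorem srow_η (z : ℤ × ℤ) (r : Fin 4) (s e jp : ℕ) (F T : ℕ → ℝ) :
    (srow z r s e jp F T).η = T s * T (e - 1) := by
  rcases fin4_cases r with rfl | rfl | rfl | rfl <;> rfl

theorem srow_j (z : ℤ × ℤ) (r : Fin 4) (s e jp : ℕ) (F T : ℕ → ℝ) :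
    |(srow z r s e jp F T).j| = |F (e - 1) - F s| := by
  rcases fin4_cases r with rfl | rfl | rfl | rfl
  · rfl
  · rfl
  · exact abs_sub_comm _ _
  · exact abs_sub_comm _ _

variable {l : ℕ} {p : ZMod l → ℤ × ℤ} {n : ℕ} {S₀ : Finset (ℤ × ℤ)}

theorem st_same {u : ℕ → ℤ} {A X Y : ℕ} (h : X < A ↔ Y < A) (hu : u Y = u X) :
    stτ A X = stτ A Y ∧ stΦ θ β u A Y = stΦ θ β u A X := by
  unfold stτ stΦ
  rw [hu]
  by_cases hX : X < A
  · rw [if_pos hX, if_pos (h.1 hX), if_pos hX, if_pos (h.1 hX)]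
    exact ⟨rfl, rfl⟩
  · rw [if_neg hX, if_neg fun h' => hX (h.2 h'), if_neg hX, if_neg fun h' => hX (h.2 h')]
    exact ⟨rfl, rfl⟩

theorem st_jun {u : ℕ → ℤ} {A X Y : ℕ} (h : X < A) (h' : ¬ Y < A) (hu : u Y = u X) :
    stτ A X = -stτ A Y ∧ stΦ θ β u A Y - stΦ θ β u A X = β := by
  unfold stτ stΦ
  rw [hu, if_pos h, if_neg h', if_pos h, if_neg h']
  exact ⟨by norm_num, by ring⟩

theorem st_base {u : ℕ → ℤ} {A X Y : ℕ} (h : ¬ X < A) (h' : Y < A) (hu : u X = u Y + 4) :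
    stτ A X = -stτ A Y ∧ stΦ θ β u A Y - stΦ θ β u A X = -θ - β := by
  unfold stτ stΦ
  rw [hu, if_neg h, if_pos h', if_neg h, if_pos h']
  refine ⟨rfl, ?_⟩
  push_cast
  ring

/-- The phases and the colours at the ends of a row, Dobrushin boundary conditions. -/
theorem dob_diff (hp : IsPolygon p) (hD : Encloses p S₀) {t i s e ia : ℕ} {ta : ℝ} (hi : i < l)
    (ht : t < n) (hs : s < n) (he : e - 1 < n) (hse : s ≤ e - 1) (h1 : 0 < ia) (h2 : ia < l)
    (h3 : 0 < ta) (h4 : ta < 1) :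
    (stτ ((Bc.dob ia ta).ka l n t) (kOf l n t i s) =
        stτ ((Bc.dob ia ta).ka l n t) (kOf l n t i (e - 1)) ∧
      stΦ θ β (uN p n t) ((Bc.dob ia ta).ka l n t) (kOf l n t i (e - 1)) =
        stΦ θ β (uN p n t) ((Bc.dob ia ta).ka l n t) (kOf l n t i s)) ∨
    (stτ ((Bc.dob ia ta).ka l n t) (kOf l n t i s) =
        -stτ ((Bc.dob ia ta).ka l n t) (kOf l n t i (e - 1)) ∧
      (stΦ θ β (uN p n t) ((Bc.dob ia ta).ka l n t) (kOf l n t i (e - 1)) -
        stΦ θ β (uN p n t) ((Bc.dob ia ta).ka l n t) (kOf l n t i s) = β ∨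
      stΦ θ β (uN p n t) ((Bc.dob ia ta).ka l n t) (kOf l n t i (e - 1)) -
        stΦ θ β (uN p n t) ((Bc.dob ia ta).ka l n t) (kOf l n t i s) = -θ - β)) := by
  have hn : 0 < n := by omega
  have ha := dob_lt (n := n) h3 h4 hn
  have hka : (Bc.dob ia ta).ka l n t = kOf l n t ia ⌊ta * n⌋₊ := rfl
  rw [hka]
  have g1 : 1 * n ≤ ia * n := Nat.mul_le_mul_right n h1
  have g2 : (ia + 1) * n ≤ l * n := Nat.mul_le_mul_right n h2
  have g3 : (i + 1) * n ≤ l * n := Nat.mul_le_mul_right n hi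
  rw [add_mul, one_mul] at g2 g3
  have uS := uN_kOf (p := p) hp hD ht hi hs
  have uE := uN_kOf (p := p) hp hD ht hi he
  have hA : kOf l n t ia ⌊ta * n⌋₊ = ia * n + ⌊ta * n⌋₊ - t := by
    unfold kOf
    rw [if_pos (by omega)]
  by_cases hi0 : i = 0
  · subst hi0
    rw [if_pos rfl] at uS uE
    have hX : kOf l n t 0 s = if t ≤ s then s - t else l * n + s - t := by
      unfold kOf
      rw [zero_mul, zero_add]
    have hY : kOf l n t 0 (e - 1) = if t ≤ e - 1 then e - 1 - t else l * n + (e - 1) - t := by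
      unfold kOf
      rw [zero_mul, zero_add]
    by_cases c1 : s < t
    · rw [if_neg (by omega)] at hX
      rw [if_pos c1] at uS
      by_cases c2 : e - 1 < t
      · rw [if_neg (by omega)] at hY
        rw [if_pos c2] at uE
        left
        refine st_same ⟨fun h => ?_, fun h => ?_⟩ (by rw [uS, uE])
        · rw [hA, hX] at h; omega
        · rw [hA, hY] at h; omega
      · rw [if_pos (by omega)] at hY
        rw [if_neg c2] at uE
        right
        obtain ⟨k1, k2⟩ := st_base (θ := θ) (β := β) (u := uN p n t) (A := kOf l n t ia ⌊ta * n⌋₊)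
          (X := kOf l n t 0 s) (Y := kOf l n t 0 (e - 1)) (by rw [hA, hX]; omega)
          (by rw [hA, hY]; omega) (by rw [uS, uE]; ring)
        exact ⟨k1, Or.inr k2⟩
    · rw [if_pos (by omega)] at hX hY
      rw [if_neg c1] at uS
      rw [if_neg (by omega : ¬ e - 1 < t)] at uE
      left
      refine st_same ⟨fun _ => ?_, fun _ => ?_⟩ (by rw [uS, uE])
      · rw [hA, hY]; omega
      · rw [hA, hX]; omega
  · have g5 : 1 * n ≤ i * n := Nat.mul_le_mul_right n (Nat.pos_of_ne_zero hi0)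
    rw [if_neg hi0] at uS uE
    have hX : kOf l n t i s = i * n + s - t := by
      unfold kOf
      rw [if_pos (by omega)]
    have hY : kOf l n t i (e - 1) = i * n + (e - 1) - t := by
      unfold kOf
      rw [if_pos (by omega)]
    by_cases c1 : kOf l n t i s < kOf l n t ia ⌊ta * n⌋₊
    · by_cases c2 : kOf l n t i (e - 1) < kOf l n t ia ⌊ta * n⌋₊
      · left
        exact st_same ⟨fun _ => c2, fun _ => c1⟩ (by rw [uS, uE])
      · right
        obtain ⟨k1, k2⟩ := st_jun (θ := θ) (β := β) (u := uN p n t) c1 c2 (by rw [uS, uE])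
        exact ⟨k1, Or.inl k2⟩
    · have c2 : ¬ kOf l n t i (e - 1) < kOf l n t ia ⌊ta * n⌋₊ := by
        rw [hA, hX] at c1
        rw [hA, hY]
        omega
      left
      exact st_same ⟨fun h => absurd h c1, fun h => absurd h c2⟩ (by rw [uS, uE])

/-! ### the weights of the frame -/

variable {Q : Marks} {bc : Bc}

/-- **The weights of the junctions of a Dobrushin frame**: all weights are at most `2 cos θ`, those of
the near faces are at most `1`. -/
theorem jn_dob (hp : IsPolygon p) (hD : Encloses p S₀) (hQ : Q.Ok) (h0 : 0 < θ) (h1 : θ ≤ π / 3)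
    (hβ : β = (θ - π) / 2 ∨ β = (π - 3 * θ) / 2) {g δ : ℝ} (hg : Gap Q l g)
    {ia : ℕ} {ta : ℝ} (hbg : BGap l Q g (.dob ia ta)) (hδ : 0 < δ) (hδg : 4 * δ ≤ g)
    (hn : 16 ≤ δ * n) (x : Fin l × Fin (Q.m + 1))
    (hx : ¬ Plain (frows θ β p Q n ⌊δ * n⌋₊ (.dob ia ta) x)) :
    (frows θ β p Q n ⌊δ * n⌋₊ (.dob ia ta) x).η = -1 ∧
    (∀ b, (jn θ (frows θ β p Q n ⌊δ * n⌋₊ (.dob ia ta) x) b).w ≤ 2 * cos θ ∧
      (jn θ (frows θ β p Q n ⌊δ * n⌋₊ (.dob ia ta) x) b).w' ≤ 2 * cos θ) ∧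
    (jn θ (frows θ β p Q n ⌊δ * n⌋₊ (.dob ia ta) x) (nfc (pdir p x.1))).w ≤ 1 ∧
    (jn θ (frows θ β p Q n ⌊δ * n⌋₊ (.dob ia ta) x) (nfc (pdir p x.1))).w' ≤ 1 := by
  have hok := frows_okg (β := β) (bc := .dob ia ta) hp hD hQ h0 (by linarith) hβ hg hbg hδ hδg
    hn x
  have h := rb_of (p := p) hQ hg hδ hδg hn x.1.2 (j := x.2) (by omega)
  have hse := h.se
  have key := dob_diff (θ := θ) (β := β) hp hD h.il h.ht h.sn h.en (by omega) hbg.1 hbg.2.1
    hbg.2.2.1 hbg.2.2.2.1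
  have e1 : (frows θ β p Q n ⌊δ * n⌋₊ (.dob ia ta) x).η = _ := srow_η _ _ _ _ _ _ _
  have e2 : |(frows θ β p Q n ⌊δ * n⌋₊ (.dob ia ta) x).j| = _ := srow_j _ _ _ _ _ _ _
  have e3 : tj (frows θ β p Q n ⌊δ * n⌋₊ (.dob ia ta) x) (nfc (pdir p x.1)) *
    (frows θ β p Q n ⌊δ * n⌋₊ (.dob ia ta) x).j = _ := srow_tj _ _ _ _ _ _ _
  beta_reduce at e1 e2 e3
  obtain ⟨r, hr⟩ : ∃ r, r = frows θ β p Q n ⌊δ * n⌋₊ (.dob ia ta) x := ⟨_, rfl⟩
  rw [← hr] at hok hx e1 e2 e3 ⊢
  rcases key with ⟨k1, k2⟩ | ⟨k1, k2⟩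
  · exfalso
    apply hx
    rw [k2, sub_self, abs_zero, abs_eq_zero] at e2
    refine ⟨e2, ?_⟩
    rw [e1, k1]
    rcases stτ_or ((Bc.dob ia ta).ka l n (tB n Q))
      (kOf l n (tB n Q) x.1 (eW p n Q ⌊δ * n⌋₊ x.1 x.2 - 1)) with h | h <;> rw [h] <;> norm_num
  · have hη : r.η = -1 := by
      rw [e1, k1]
      rcases stτ_or ((Bc.dob ia ta).ka l n (tB n Q))
        (kOf l n (tB n Q) x.1 (eW p n Q ⌊δ * n⌋₊ x.1 x.2 - 1)) with h | h <;> rw [h] <;> norm_num
    have hj : |r.j| = (π - θ) / 2 ∨ |r.j| = (π - 3 * θ) / 2 := by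
      rcases hok.kind with h | ⟨⟨h, -⟩ | ⟨-, h⟩, -⟩
      · exact absurd h hx
      · exact h
      · rw [hη] at h
        norm_num at h
    refine ⟨hη, jn_le h0 h1 hok.s hj hη, ?_⟩
    rcases hj with hj | hj
    · rcases jn_K1 (b := nfc (pdir p x.1)) h0 h1 hok.s hj hη with ⟨-, a1, a2⟩ | ⟨-, a1, a2⟩ <;>
        rw [a1, a2] <;> constructor <;> norm_num
    · have ht : tj r (nfc (pdir p x.1)) * r.j ≤ 0 := by
        rw [e3]
        rw [hj] at e2
        have : 0 ≤ stΦ θ β (uN p n (tB n Q)) ((Bc.dob ia ta).ka l n (tB n Q))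
            (kOf l n (tB n Q) x.1 (eW p n Q ⌊δ * n⌋₊ x.1 x.2 - 1)) -
            stΦ θ β (uN p n (tB n Q)) ((Bc.dob ia ta).ka l n (tB n Q))
            (kOf l n (tB n Q) x.1 (sW p n Q ⌊δ * n⌋₊ x.1 x.2)) := by
          rcases k2 with k2 | k2 <;> rw [k2] at e2 ⊢ <;> rcases hβ with rfl | rfl
          · rw [abs_of_nonpos (by linarith)] at e2
            linarith
          · linarith
          · linarith
          · rw [abs_of_nonpos (by linarith)] at e2
            linarith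
        linarith
      obtain ⟨a1, a2⟩ := jn_K2n h0 h1 hok.s hj hη ht
      rw [a1, a2]
      exact ⟨le_rfl, le_rfl⟩

end Vale.Agent.P167.H825.Jun
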